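import Claimed.Agent.R322.Pack053
import Claimed.Agent.R322.Tube.Inputs

/-!
# R322 / Flat / Cyl0 : normal cylinders over the zero graph; `Tube.scalar_input` in flat form
(leaves L-Flat-Cyl0 = the identifications `npr_zero … refGraph_zero`; L-Flat-ScalarFlat = `scalar_flat`)

PLANS.
* `npr_zero`: `Fg 0 y = mkHV y 0`, `‖X - mkHV y 0‖² = ‖prH X - y‖² + ‖prV X‖²` (`norm_sq_split`, `prH_mk`, `prV_mk`, linearity), so
  `prH X` is the unique minimiser; `Classical.epsilon_spec`.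
* `tilt_zero`: `fderiv 0 = 0`, `dF 0 = inH`, `PhA 0` = orthogonal projection onto the horizontal plane `= 1 - PV`
  (`Submodule.eq_starProjection_of_mem_of_inner_eq_zero`-type characterisation; `Base/Exit/Lin.lean: PhA_eq` may help).
* `lam_zero`: `D2 0 = 0`, so `II = 0`, `HS = 0` (as a function), `DHS = 0`, `DHSsq = 0`.
* `scalar_flat`: apply `Tube.scalar_input m n hm hn (C₀ 2^m) 2` with `K = 0`; `h = min h₀ 1`; the cylinder
  `N = ⟨W, 0, ball 0 2, h, h/2, 1, …⟩` (`Cyl 0 (ball 0 2) h ⊆ ball 0 3`); `x = 0`, `s = 1/2`, `ε_in = 2^m ε`.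
  `N.nu A = μ {X ∈ Cyl | prH X ∈ A}`, `(N.Dm + N.Lm) A = ∫⁻_{X ∈ Cyl, prH X ∈ A} (ofReal tl + ofReal ‖prV X‖²) dμ`
  (`Measure.map_apply`, `withDensity_apply`; `prH` is continuous), `∫ η dN.nu = ∫_{Cyl} η (prH X) dμ` (`integral_map`),
  which equals `∫_{ball 0 3} η (prH X) dμ` because a.e. `X` is a support point, of height `< h/2` if `‖X‖ < 3`;
  `∫ η dN.volS = ∫ η dμH[m]` (`vdens_zero`, `tsupport η ⊆ ball 0 2`).
-/

set_option autoImplicit false

open scoped ENNReal ContDiff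
open MeasureTheory

namespace Claimed.Agent.R322.Flat

variable {m n : ℕ}

theorem norm_sq_sub_mk_zero (X : E (m + n)) (y : E m) :
    ‖X - mkHV y 0‖ ^ 2 = ‖prH m n X - y‖ ^ 2 + ‖prV m n X‖ ^ 2 := by
  rw [norm_sq_split, map_sub, map_sub, prH_mk, prV_mk, sub_zero]

theorem npr_zero (X : E (m + n)) : Tube.npr (fun _ : E m => (0 : E n)) X = prH m n X := by
  have hex : ∃ y : E m, ∀ y' : E m, ‖X - Tube.Fg (fun _ : E m => (0 : E n)) y‖
      ≤ ‖X - Tube.Fg (fun _ : E m => (0 : E n)) y'‖ := by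
    refine ⟨prH m n X, fun y' => ?_⟩
    refine abs_le_of_sq_le_sq' ?_ (norm_nonneg _) |>.2
    unfold Tube.Fg
    rw [norm_sq_sub_mk_zero, norm_sq_sub_mk_zero, sub_self, norm_zero]
    nlinarith [sq_nonneg ‖prH m n X - y'‖]
  have h1 := Classical.epsilon_spec hex (prH m n X)
  change ‖X - Tube.Fg (fun _ : E m => (0 : E n)) (Tube.npr (fun _ : E m => (0 : E n)) X)‖ ≤ _ at h1
  have h2 : ‖X - Tube.Fg (fun _ : E m => (0 : E n)) (Tube.npr (fun _ : E m => (0 : E n)) X)‖ ^ 2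
      ≤ ‖X - Tube.Fg (fun _ : E m => (0 : E n)) (prH m n X)‖ ^ 2 := by gcongr
  unfold Tube.Fg at h2
  rw [norm_sq_sub_mk_zero, norm_sq_sub_mk_zero, sub_self, norm_zero] at h2
  have h3 : ‖prH m n X - Tube.npr (fun _ : E m => (0 : E n)) X‖ ^ 2 ≤ 0 := by linarith
  have h4 : ‖prH m n X - Tube.npr (fun _ : E m => (0 : E n)) X‖ = 0 := by
    have := sq_nonneg ‖prH m n X - Tube.npr (fun _ : E m => (0 : E n)) X‖
    exact pow_eq_zero_iff (two_ne_zero) |>.1 (le_antisymm h3 this)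
  exact (sub_eq_zero.1 (norm_eq_zero.1 h4)).symm

theorem zz_zero (X : E (m + n)) :
    Tube.zz (fun _ : E m => (0 : E n)) X = mkHV 0 (prV m n X) := by
  unfold Tube.zz Tube.Fg
  rw [npr_zero]
  conv_lhs => rw [← mk_prH_prV X]
  rw [prH_mk, ← mk_sub, sub_self, sub_zero]

theorem norm_zz_zero (X : E (m + n)) : ‖Tube.zz (fun _ : E m => (0 : E n)) X‖ = ‖prV m n X‖ := by
  rw [zz_zero]
  have h2 := norm_sq_mk (0 : E m) (prV m n X)
  rw [norm_zero] at h2
  have h3 : ‖mkHV (0 : E m) (prV m n X)‖ ^ 2 = ‖prV m n X‖ ^ 2 := by linarith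
  exact (pow_left_inj₀ (norm_nonneg _) (norm_nonneg _) (by norm_num)).1 h3

theorem Cyl_zero (Ω : Set (E m)) (h : ℝ) :
    Tube.Cyl (fun _ : E m => (0 : E n)) Ω h = {X | prH m n X ∈ Ω ∧ ‖prV m n X‖ < h} := by
  ext X
  unfold Tube.Cyl
  simp only [Set.mem_ofPred_eq, npr_zero, norm_zz_zero]

theorem fderiv_zero_fun (y : E m) : fderiv ℝ (fun _ : E m => (0 : E n)) y = 0 := by
  simp

theorem PhA_zero_apply (X : E (m + n)) :
    Tube.PhA (0 : E m →L[ℝ] E n) X = mkHV (prH m n X) 0 := by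
  unfold Tube.PhA
  have hmem : mkHV (prH m n X) (0 : E n) ∈ LinearMap.range
      ((Tube.dF (0 : E m →L[ℝ] E n) : E m →L[ℝ] E (m + n)) : E m →ₗ[ℝ] E (m + n)) := by
    refine LinearMap.mem_range.2 ⟨prH m n X, ?_⟩
    change Tube.dF (0 : E m →L[ℝ] E n) (prH m n X) = _
    rw [Tube.dF_apply]
    simp
  refine Submodule.eq_starProjection_of_mem_of_inner_eq_zero hmem ?_
  · rintro _ ⟨v, rfl⟩
    change inner ℝ (X - mkHV (prH m n X) 0) (Tube.dF (0 : E m →L[ℝ] E n) v) = 0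
    rw [Tube.dF_apply]
    have h1 : X - mkHV (prH m n X) 0 = mkHV 0 (prV m n X) := by
      conv_lhs => rw [← mk_prH_prV X]
      rw [prH_mk, ← mk_sub, sub_self, sub_zero]
    rw [h1, Tube.inner_mkHV]
    simp

theorem Pv_zero (y : E m) : Tube.Pv (fun _ : E m => (0 : E n)) y = PV m n := by
  ext1 X
  unfold Tube.Pv Tube.Ph
  rw [fderiv_zero_fun, sub_apply, ContinuousLinearMap.id_apply, PhA_zero_apply,
    PV_apply]
  conv_lhs => rw [← mk_prH_prV X]
  rw [prH_mk, ← mk_sub, sub_self, sub_zero]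

theorem tilt_zero (P : E (m + n) →L[ℝ] E (m + n)) (X : E (m + n)) :
    Tube.tilt (fun _ : E m => (0 : E n)) P X = tl P := by
  unfold Tube.tilt tl
  rw [Pv_zero]

theorem HS_zero : Tube.HS (fun _ : E m => (0 : E n)) = fun _ => 0 := by
  funext y
  unfold Tube.HS Tube.II Tube.D2
  have h1 : fderiv ℝ (fun _ : E m => (0 : E n)) = fun _ => 0 := by
    funext y
    exact fderiv_zero_fun y
  rw [h1]
  simp

theorem lam_zero (X : E (m + n)) : Tube.lam (fun _ : E m => (0 : E n)) X = ‖prV m n X‖ ^ 2 := by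
  unfold Tube.lam Tube.DHSsq Tube.DHS
  rw [HS_zero, norm_zz_zero]
  simp

theorem vdens_zero (y : E m) : Tube.vdens (fderiv ℝ (fun _ : E m => (0 : E n)) y) = 1 := by
  rw [fderiv_zero_fun]
  unfold Tube.vdens Tube.gmat
  simp

theorem refGraph_zero (J : ℕ) {K ε : ℝ} (hK : 0 ≤ K) (hε : 0 ≤ ε) :
    Tube.RefGraph J K ε (fun _ : E m => (0 : E n)) := by
  refine ⟨contDiff_const, fun y => ?_, fun j _ _ y => ?_⟩
  · rw [fderiv_zero_fun, norm_zero]
    exact hε
  · have : iteratedFDeriv ℝ j (fun _ : E m => (0 : E n)) y = 0 := by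
      have := iteratedFDeriv_fun_zero (𝕜 := ℝ) (E := E m) (F := E n) (n := j)
      exact congrFun this y
    rw [this, norm_zero]
    exact hK

/-- **AE Lemma 2.5 over the horizontal plane**, in the vocabulary of this folder. -/
theorem scalar_flat (m n : ℕ) (hm : 1 ≤ m) (hn : 1 ≤ n) (C₀ : ℝ) :
    ∃ (Jsc : ℕ) (h εs C : ℝ), 0 < h ∧ h ≤ 1 ∧ 0 < εs ∧ 0 < C ∧ ∀ (W : SIV m n) (ε : ℝ),
      Metric.closedBall 0 3 ⊆ W.U → (∀ X ∈ W.support, ‖X‖ ≤ 3 → ‖prV m n X‖ < h / 2) →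
      W.μ (Metric.ball 0 3) ≤ ENNReal.ofReal C₀ →
      ∫ X in Metric.ball 0 3, (tl (W.P X) + ‖prV m n X‖ ^ 2) ∂W.μ ≤ ε → ε ≤ εs →
      ∃ q : ℕ, ∀ (η : E m → ℝ) (A : ℝ), ContDiff ℝ ∞ η → tsupport η ⊆ Metric.ball 0 (3 / 4) →
        (∀ j : ℕ, j ≤ Jsc → ∀ y, ‖iteratedFDeriv ℝ j η y‖ ≤ A) →
        |(∫ X in Metric.ball 0 3, η (prH m n X) ∂W.μ) - q * ∫ y, η y ∂μH[(m : ℝ)]| ≤ C * ε * A := by
  obtain ⟨Jsc, J, H⟩ := Tube.scalar_input m n hm hn (C₀ * 2 ^ m) 2 (by norm_num)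
  obtain ⟨ε₀, h₀, εs, C, hε₀, hh₀, hεs, hC, H⟩ := H 0 zero_le_one
  obtain ⟨h, hhdef⟩ : ∃ h : ℝ, h = min h₀ 1 := ⟨_, rfl⟩
  have hh0 : 0 < h := by rw [hhdef]; positivity
  have hh1 : h ≤ 1 := hhdef ▸ min_le_right _ _
  have hhh₀ : h ≤ h₀ := hhdef ▸ min_le_left _ _
  refine ⟨Jsc, h, εs / 2 ^ m, C, hh0, hh1, by positivity, hC, ?_⟩
  intro W ε hU hh hmass hint hε
  have h2m : (2 : ℝ) ^ m * (1 / 2) ^ m = 1 := by
    rw [← mul_pow]; norm_num
  have hnpr : Tube.npr (fun _ : E m => (0 : E n)) = prH m n := funext npr_zero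
  have hprm : Measurable (prH m n) := (prH m n).continuous.measurable
  -- the cylinder
  obtain ⟨Cy, hCydef⟩ : ∃ Cy : Set (E (m + n)),
      Cy = Tube.Cyl (fun _ : E m => (0 : E n)) (Metric.ball 0 2) h := ⟨_, rfl⟩
  have hCy : Cy = {X | prH m n X ∈ Metric.ball (0 : E m) 2 ∧ ‖prV m n X‖ < h} := by
    rw [hCydef, Cyl_zero]
  have hcyl : Cy ⊆ Metric.ball 0 3 := by
    rw [hCy]
    rintro X ⟨h1, h2⟩
    rw [mem_ball_zero_iff] at h1 ⊢
    have h3 := norm_sq_split X
    have h4 : ‖X‖ ^ 2 < 3 ^ 2 := by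
      nlinarith [norm_nonneg (prH m n X), norm_nonneg (prV m n X)]
    exact lt_of_pow_lt_pow_left₀ 2 (by norm_num) h4
  let N : Tube.NCyl m n :=
    { W := W
      u := fun _ => 0
      Ω := Metric.ball 0 2
      h := h
      h' := h / 2
      Q := 1
      isOpen_Ω := Metric.isOpen_ball
      h'_pos := by positivity
      h'_lt := by linarith
      Q_pos := le_rfl
      cyl_sub := by
        rw [← hCydef]
        exact hcyl.trans (Metric.ball_subset_closedBall.trans hU)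
      gap := fun X hX hXC => by
        rw [norm_zz_zero]
        rw [← hCydef] at hXC
        exact hh X hX (mem_ball_zero_iff.1 (hcyl hXC)).le }
  have hNμ : N.μ = W.μ.restrict Cy := by
    rw [hCydef]; rfl
  have hNnu : N.nu = (W.μ.restrict Cy).map (prH m n) := by
    rw [← hNμ, ← hnpr]; rfl
  have hNDm : N.Dm = ((W.μ.restrict Cy).withDensity
      (fun X => ENNReal.ofReal (tl (W.P X)))).map (prH m n) := by
    rw [← hNμ, ← hnpr]
    have : (fun X => ENNReal.ofReal (tl (W.P X)))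
        = fun X => ENNReal.ofReal (Tube.tilt N.u (N.W.P X) X) := by
      funext X
      exact congrArg _ (tilt_zero _ _).symm
    rw [this]; rfl
  have hNLm : N.Lm = ((W.μ.restrict Cy).withDensity
      (fun X => ENNReal.ofReal (‖prV m n X‖ ^ 2))).map (prH m n) := by
    rw [← hNμ, ← hnpr]
    have : (fun X => ENNReal.ofReal (‖prV m n X‖ ^ 2))
        = fun X => ENNReal.ofReal (Tube.lam N.u X) := by
      funext X
      exact congrArg _ (lam_zero _).symm
    rw [this]; rfl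
  have hNvol : N.volS = (μH[(m : ℝ)] : Measure (E m)).restrict (Metric.ball 0 2) := by
    have : N.volS = ((μH[(m : ℝ)] : Measure (E m)).restrict (Metric.ball 0 2)).withDensity
        (fun y => ENNReal.ofReal (Tube.vdens (fderiv ℝ (fun _ : E m => (0 : E n)) y))) := rfl
    rw [this]
    simp only [vdens_zero, ENNReal.ofReal_one]
    exact withDensity_one
  have hBm : MeasurableSet (Metric.ball (0 : E m) (2 * (1 / 2))) := Metric.isOpen_ball.measurableSet
  -- hypotheses of `scalar_input`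
  have hnu : N.nu (Metric.ball 0 (2 * (1 / 2))) ≤ ENNReal.ofReal (C₀ * 2 ^ m * (1 / 2) ^ m) := by
    rw [mul_assoc, h2m, mul_one, hNnu, Measure.map_apply hprm hBm]
    refine le_trans ?_ hmass
    calc (W.μ.restrict Cy) _ ≤ (W.μ.restrict Cy) Set.univ := measure_mono (Set.subset_univ _)
      _ = W.μ Cy := Measure.restrict_apply_univ _
      _ ≤ W.μ (Metric.ball 0 3) := measure_mono hcyl
  have hi1 : IntegrableOn (fun X => tl (W.P X)) (Metric.ball 0 3) W.μ :=
    W.mea_integrableOn hU Metric.isOpen_ball.measurableSet Metric.ball_subset_closedBall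
      (measurable_tl W) (C := m) fun X _ => by
        rw [abs_of_nonneg (tl_nonneg (W.P_proj X))]
        exact tl_le (W.P_proj X)
  have hi2 : IntegrableOn (fun X => ‖prV m n X‖ ^ 2) (Metric.ball 0 3) W.μ :=
    W.mea_integrableOn hU Metric.isOpen_ball.measurableSet Metric.ball_subset_closedBall
      ((prV m n).continuous.norm.pow 2).measurable (C := 3 ^ 2) fun X hX => by
        rw [abs_of_nonneg (by positivity)]
        have := (norm_prV_le X).trans (mem_ball_zero_iff.1 hX).le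
        gcongr
  have hwd : ∀ f : E (m + n) → ℝ≥0∞, (((W.μ.restrict Cy).withDensity f).map (prH m n))
      (Metric.ball 0 (2 * (1 / 2))) ≤ ∫⁻ X in Metric.ball 0 3, f X ∂W.μ := by
    intro f
    rw [Measure.map_apply hprm hBm]
    calc ((W.μ.restrict Cy).withDensity f) _
        ≤ ((W.μ.restrict Cy).withDensity f) Set.univ := measure_mono (Set.subset_univ _)
      _ = ∫⁻ X in Cy, f X ∂W.μ := by
        rw [withDensity_apply _ MeasurableSet.univ, Measure.restrict_univ]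
      _ ≤ ∫⁻ X in Metric.ball 0 3, f X ∂W.μ := lintegral_mono_set hcyl
  have hDL : (N.Dm + N.Lm) (Metric.ball 0 (2 * (1 / 2)))
      ≤ ENNReal.ofReal (2 ^ m * ε * (1 / 2) ^ m) := by
    have e1 : (2 : ℝ) ^ m * ε * (1 / 2) ^ m = ε := by
      rw [mul_right_comm, h2m, one_mul]
    rw [e1, Measure.add_apply, hNDm, hNLm]
    refine (add_le_add (hwd _) (hwd _)).trans ?_
    rw [← lintegral_add_left (measurable_tl W).ennreal_ofReal]
    refine le_trans (le_of_eq ?_) (ENNReal.ofReal_le_ofReal hint)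
    have hi12 : Integrable (fun X => tl (W.P X) + ‖prV m n X‖ ^ 2)
        (W.μ.restrict (Metric.ball 0 3)) := hi1.add hi2
    rw [ofReal_integral_eq_lintegral_ofReal hi12
      (Filter.Eventually.of_forall fun X => add_nonneg (tl_nonneg (W.P_proj X)) (by positivity))]
    refine lintegral_congr fun X => ?_
    rw [ENNReal.ofReal_add (tl_nonneg (W.P_proj X)) (by positivity)]
  have hεin : 2 ^ m * ε ≤ εs := by
    rw [le_div_iff₀ (by positivity)] at hε
    linarith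
  have _hε0in : 0 ≤ 2 ^ m * ε := by
    have h0 : 0 ≤ ∫ X in Metric.ball 0 3, (tl (W.P X) + ‖prV m n X‖ ^ 2) ∂W.μ :=
      integral_nonneg fun X => add_nonneg (tl_nonneg (W.P_proj X)) (by positivity)
    have : 0 ≤ ε := h0.trans hint
    positivity
  have hsub : Metric.closedBall (0 : E m) (2 * (1 / 2)) ⊆ N.Ω :=
    Metric.closedBall_subset_ball (by norm_num)
  obtain ⟨q, -, hq, -⟩ := H N (refGraph_zero J le_rfl hε₀.le) hhh₀ 0 (1 / 2) (2 ^ m * ε)
    (by norm_num) le_rfl hsub hnu hDL _hε0in hεin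
  refine ⟨q, fun η A hη hηs hηA => ?_⟩
  have e34 : ((1 : ℝ) + 2) / 2 * (1 / 2) = 3 / 4 := by norm_num
  have h1 := hq η A hη (by rw [e34]; exact hηs) (fun j hj y => by
    refine le_trans ?_ (hηA j hj y)
    calc (1 / 2 : ℝ) ^ j * ‖iteratedFDeriv ℝ j η y‖ ≤ 1 * ‖iteratedFDeriv ℝ j η y‖ :=
          mul_le_mul_of_nonneg_right (pow_le_one₀ (by norm_num) (by norm_num)) (norm_nonneg _)
      _ = _ := one_mul _)
  have e2 : C * (2 ^ m * ε) * (1 / 2) ^ m * A = C * ε * A := by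
    have : C * (2 ^ m * ε) * (1 / 2) ^ m * A = C * ε * A * ((2 : ℝ) ^ m * (1 / 2) ^ m) := by ring
    rw [this, h2m, mul_one]
  rw [e2, hNnu, hNvol, integral_map hprm.aemeasurable hη.continuous.aestronglyMeasurable] at h1
  have e3 : ∫ X in Metric.ball 0 3, η (prH m n X) ∂W.μ = ∫ X in Cy, η (prH m n X) ∂W.μ := by
    refine setIntegral_eq_of_subset_of_ae_sdiff_eq_zero
      Metric.isOpen_ball.measurableSet.nullMeasurableSet hcyl ?_
    have hae : ∀ᵐ X ∂W.μ, X ∈ W.support := by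
      rw [ae_iff]
      exact W.μ_compl_support
    filter_upwards [hae] with X hX hXd
    by_contra hne
    apply hXd.2
    rw [hCy]
    refine ⟨?_, ?_⟩
    · have : prH m n X ∈ tsupport η := subset_tsupport _ hne
      exact Metric.ball_subset_ball (by norm_num) (hηs this)
    · have := hh X hX (mem_ball_zero_iff.1 hXd.1).le
      linarith
  have e4 : ∫ y in Metric.ball 0 2, η y ∂μH[(m : ℝ)] = ∫ y, η y ∂μH[(m : ℝ)] := by
    refine setIntegral_eq_integral_of_forall_compl_eq_zero fun y hy => ?_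
    refine image_eq_zero_of_notMem_tsupport fun h => hy ?_
    exact Metric.ball_subset_ball (by norm_num) (hηs h)
  rw [e3, ← e4]
  exact h1

end Claimed.Agent.R322.Flat
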