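import Claimed.Agent.R322.Pack056
import Claimed.Agent.R322.Flat.Cyl0

/-!
# R322 / Flat / Conv : consequences of eventual flatness: integrality of the density, weak convergence
(leaves L-Flat-NearInt = `near_integer`; L-Flat-Integer = `integer_of_isFlat`; L-Flat-LipApprox = `exists_lip_approx`;
 L-Flat-Tendsto = `tendsto_of_isFlat`)

PLANS.
* `near_integer`.  `(Jsc, h, εs, C)` from `scalar_flat` with `C₀ = (q₀+1) kap 3^m`.  Fix a smooth bump `η₀` with
  `tsupport η₀ ⊆ ball 0 (3/4)`, `∫ η₀ dμH[m] = 1` (`ContDiffBump … .normed`), `A` a bound of `‖iteratedFDeriv j η₀‖`, `j ≤ Jsc`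
  (continuous with compact support), `c₁ ≥ 1` a bound of `|η₀|` and of its Lipschitz constant.  `planar_proj` with `ρ = 3/2`,
  `ε/(2 c₁)` for `g = η₀ / c₁`: `|∫_{ball 0 3} η₀ (prH X) dμ - q| ≤ ε/2`.  `scalar_flat` with `ε' = η + η² (q₀+1) kap 3^m`
  (`IsFlat.tilt`, `IsFlat.height`, `IsFlat.mass_le`): `|∫_{ball 0 3} η₀ (prH X) dμ - k| ≤ C ε' A ≤ ε/2`.
* `integer_of_isFlat`: for every `ε` there is `k` with `|q - k| ≤ ε`; two such `k` for `ε ≤ 1/4` coincide.
* `exists_lip_approx`: mollify (`ContDiffBump.normed`, `ContDiffBump.dist_normed_convolution_le`, uniform continuity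
  `HasCompactSupport.uniformContinuous_of_continuous`), `HasCompactSupport.convolution`, `ContDiff.lipschitzWith_of_hasCompactSupport`.
* `tendsto_of_isFlat`.  Let `tsupport g ⊆ closedBall 0 ρ'`, `ρ = ρ' + 1`.  Given `ε`: `g̃` from `exists_lip_approx`, `c₁ ≥ 1` bounding
  `|g̃|` and its Lipschitz constant; `planar_core` for `χ = g̃ / c₁`; masses `μ_j (ball 0 (2ρ)) ≤ (q+1) kap (2ρ)^m`
  (`IsFlat.mass_le`), `μH[m] (closedBall 0 ρ) < ∞`; `|∫ g dμ_j - ∫ g̃ dμ_j| ≤ ε' μ_j (closedBall 0 ρ)`, same on the plane.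
-/

set_option autoImplicit false

open scoped ENNReal ContDiff
open MeasureTheory Filter Topology

namespace Claimed.Agent.R322.Flat

variable {m n : ℕ}

/-- a fixed normalised bump with all the bounds which are needed. -/
theorem exists_bump_bounds (m Jsc : ℕ) : ∃ (η₀ : E m → ℝ) (A c₁ : ℝ), ContDiff ℝ ∞ η₀ ∧
    tsupport η₀ ⊆ Metric.closedBall 0 (1 / 2) ∧ ∫ y, η₀ y ∂μH[(m : ℝ)] = 1 ∧ 0 ≤ A ∧
    (∀ j : ℕ, j ≤ Jsc → ∀ y, ‖iteratedFDeriv ℝ j η₀ y‖ ≤ A) ∧ 1 ≤ c₁ ∧ (∀ y, |η₀ y| ≤ c₁) ∧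
    ∀ y y', |η₀ y - η₀ y'| ≤ c₁ * dist y y' := by
  let f : ContDiffBump (0 : E m) := ⟨1 / 4, 1 / 2, by norm_num, by norm_num⟩
  have hc : HasCompactSupport (f.normed (μH[(m : ℝ)] : Measure (E m))) := f.hasCompactSupport_normed
  have hs : ContDiff ℝ ∞ (f.normed (μH[(m : ℝ)] : Measure (E m))) := f.contDiff_normed
  have hb : ∀ j : ℕ, ∃ C, ∀ y, ‖iteratedFDeriv ℝ j (f.normed (μH[(m : ℝ)] : Measure (E m))) y‖ ≤ C :=
    fun j => (hc.iteratedFDeriv (𝕜 := ℝ) j).exists_bound_of_continuous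
      (hs.continuous_iteratedFDeriv (by exact_mod_cast le_top))
  choose Cj hCj using hb
  have hCj0 : ∀ j, 0 ≤ Cj j := fun j => (norm_nonneg _).trans (hCj j 0)
  obtain ⟨C₀, hC₀⟩ := hc.exists_bound_of_continuous hs.continuous
  obtain ⟨L, hL⟩ := hs.lipschitzWith_of_hasCompactSupport hc (by simp)
  refine ⟨f.normed μH[(m : ℝ)], ∑ j ∈ Finset.range (Jsc + 1), Cj j, max 1 (max C₀ L), hs,
    f.tsupport_normed_eq.subset, f.integral_normed, Finset.sum_nonneg fun j _ => hCj0 j, ?_,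
    le_max_left _ _, ?_, ?_⟩
  · intro j hj y
    exact (hCj j y).trans (Finset.single_le_sum (f := Cj) (fun i _ => hCj0 i)
      (Finset.mem_range.2 (by omega)))
  · intro y
    exact (hC₀ y).trans ((le_max_left _ _).trans (le_max_right _ _))
  · intro y y'
    rw [← Real.dist_eq]
    refine (hL.dist_le_mul y y').trans ?_
    exact mul_le_mul_of_nonneg_right ((le_max_right _ _).trans (le_max_right _ _)) dist_nonneg

theorem near_integer (m n : ℕ) (hm : 1 ≤ m) (hn : 1 ≤ n) (q₀ ε : ℝ) (hε : 0 < ε) :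
    ∃ η : ℝ, 0 < η ∧ ∀ (W : SIV m n) (q : ℝ), q ≤ q₀ → IsFlat W q 3 η → ∃ k : ℕ, |q - k| ≤ ε := by
  have hk := kap_pos m
  obtain ⟨M₀, hM₀def⟩ : ∃ M₀ : ℝ, M₀ = (|q₀| + 1) * (kap m * 3 ^ m) := ⟨_, rfl⟩
  have hM₀ : 0 < M₀ := by rw [hM₀def]; positivity
  obtain ⟨Jsc, h, εs, C, hh, -, hεs, hC, HS⟩ := scalar_flat m n hm hn M₀
  obtain ⟨η₀, A, c₁, hs, hsupp, hint, hA0, hA, hc₁, hbd, hlip⟩ := exists_bump_bounds m Jsc
  have hc₁0 : 0 < c₁ := by linarith
  obtain ⟨η₁, hη₁, HP⟩ := planar_proj m n hm q₀ (3 / 2) (ε / (2 * c₁)) (by norm_num) (by positivity)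
  have e23 : (2 : ℝ) * (3 / 2) = 3 := by norm_num
  rw [e23] at HP
  obtain ⟨η, ⟨⟨⟨⟨he1, he2⟩, he3⟩, he4⟩, he5⟩, he0⟩ : ∃ η : ℝ, ((((η ≤ 1 ∧ η ≤ η₁) ∧ η ≤ h / 4) ∧
      η + η ^ 2 * M₀ ≤ εs) ∧ C * (η + η ^ 2 * M₀) * A ≤ ε / 2) ∧ 0 < η :=
    (((((eventually_small continuous_id rfl one_pos).and
      (eventually_small continuous_id rfl hη₁)).and
      (eventually_small continuous_id rfl (by positivity : 0 < h / 4))).and
      (eventually_small (f := fun d => d + d ^ 2 * M₀) (by fun_prop) (by simp) hεs)).and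
      (eventually_small (f := fun d => C * (d + d ^ 2 * M₀) * A) (by fun_prop) (by simp)
        (by positivity : 0 < ε / 2)) |>.and self_mem_nhdsWithin).exists
  refine ⟨η, he0, fun W q hq hF => ?_⟩
  have h3 : (0 : ℝ) < 3 := by norm_num
  have hfin : W.μ (Metric.ball 0 3) < ⊤ := W.rat_ball_lt_top hF.dom
  have hmass : (W.μ (Metric.ball 0 3)).toReal ≤ M₀ := by
    rw [hM₀def]
    refine (hF.mass_le h3).trans ?_
    refine mul_le_mul_of_nonneg_right ?_ (by positivity)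
    linarith [le_abs_self q₀]
  -- the planar estimate
  have P1 : |(∫ X in Metric.ball 0 3, η₀ (prH m n X) ∂W.μ) - q| ≤ ε / 2 := by
    have := HP W q hq (hF.mono hm h3 le_rfl he2) (fun y => c₁⁻¹ * η₀ y)
      (fun y => by
        rw [abs_mul, abs_of_pos (inv_pos.2 hc₁0), inv_mul_le_iff₀ hc₁0, mul_one]
        exact hbd y)
      (LipschitzWith.of_dist_le_mul fun y y' => by
        rw [Real.dist_eq, ← mul_sub, abs_mul, abs_of_pos (inv_pos.2 hc₁0), inv_mul_le_iff₀ hc₁0,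
          NNReal.coe_one, one_mul]
        exact hlip y y')
      ((tsupport_mul_subset_right (f := fun _ => c₁⁻¹) (g := η₀)).trans
        (hsupp.trans (Metric.closedBall_subset_closedBall (by norm_num))))
    rw [integral_const_mul, integral_const_mul, hint, mul_one] at this
    have e1 : (∫ X in Metric.ball 0 3, η₀ (prH m n X) ∂W.μ) - q
        = c₁ * (c₁⁻¹ * (∫ X in Metric.ball 0 3, η₀ (prH m n X) ∂W.μ) - q * c₁⁻¹) := by
      field_simp
    rw [e1, abs_mul, abs_of_pos hc₁0]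
    calc c₁ * _ ≤ c₁ * (ε / (2 * c₁)) := mul_le_mul_of_nonneg_left this hc₁0.le
      _ = ε / 2 := by field_simp
  -- the scalar estimate
  have hi1 := integrableOn_tl W hF.dom
  have hi2 : IntegrableOn (fun X => ‖prV m n X‖ ^ 2) (Metric.ball 0 3) W.μ :=
    W.mea_integrableOn hF.dom Metric.isOpen_ball.measurableSet Metric.ball_subset_closedBall
      ((prV m n).continuous.norm.pow 2).measurable (C := 3 ^ 2) fun X hX => by
        rw [abs_of_nonneg (by positivity)]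
        have := (norm_prV_le X).trans (mem_ball_zero_iff.1 hX).le
        gcongr
  have h5 : ∫ X in Metric.ball 0 3, ‖prV m n X‖ ^ 2 ∂W.μ ≤ η ^ 2 * M₀ := by
    have h4 := norm_setIntegral_le_of_norm_le_const_ae' (μ := W.μ) (s := Metric.ball 0 3)
      (f := fun X => ‖prV m n X‖ ^ 2) (C := η ^ 2) hfin (by
        filter_upwards [ae_mem_support W] with X hX hXB
        rw [Real.norm_of_nonneg (by positivity)]
        have := hF.height X hX (mem_ball_zero_iff.1 hXB).le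
        gcongr)
    exact (le_abs_self _).trans (h4.trans (mul_le_mul_of_nonneg_left hmass (by positivity)))
  obtain ⟨k, hk⟩ := HS W (η + η ^ 2 * M₀) hF.dom
    (fun X hX hXR => lt_of_le_of_lt (hF.height X hX hXR) (by linarith))
    (by
      rw [← ENNReal.ofReal_toReal hfin.ne]
      exact ENNReal.ofReal_le_ofReal hmass)
    (by
      rw [integral_add hi1 hi2]
      linarith [hF.tilt])
    he4
  have P2 := hk η₀ A hs (hsupp.trans (Metric.closedBall_subset_ball (by norm_num))) hA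
  rw [hint, mul_one] at P2
  refine ⟨k, ?_⟩
  have e2 : q - k = -((∫ X in Metric.ball 0 3, η₀ (prH m n X) ∂W.μ) - q)
      + ((∫ X in Metric.ball 0 3, η₀ (prH m n X) ∂W.μ) - k) := by ring
  rw [e2]
  refine (abs_add_le _ _).trans ?_
  rw [abs_neg]
  linarith

theorem integer_of_isFlat (hm : 1 ≤ m) (hn : 1 ≤ n) (Ws : ℕ → SIV m n) (q : ℝ)
    (h : ∀ R η : ℝ, 0 < R → 0 < η → ∀ᶠ j in atTop, IsFlat (Ws j) q R η) : ∃ Q : ℕ, q = Q := by
  have h1 : q ∈ closure (Set.range ((↑) : ℕ → ℝ)) := by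
    rw [Metric.mem_closure_iff]
    intro ε hε
    obtain ⟨η, hη, H⟩ := near_integer m n hm hn q (ε / 2) (by positivity)
    obtain ⟨j, hj⟩ := (h 3 η (by norm_num) hη).exists
    obtain ⟨k, hk⟩ := H (Ws j) q le_rfl hj
    exact ⟨k, ⟨k, rfl⟩, by rw [Real.dist_eq]; linarith⟩
  rw [Nat.isClosedEmbedding_coe_real.isClosed_range.closure_eq] at h1
  obtain ⟨Q, hQ⟩ := h1
  exact ⟨Q, hQ.symm⟩

/-- uniform approximation of `C_c` functions by Lipschitz functions. -/
theorem exists_lip_approx {N : ℕ} (g : E N → ℝ) (hg : Continuous g) {ρ : ℝ}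
    (hgs : tsupport g ⊆ Metric.closedBall 0 ρ) (ε : ℝ) (hε : 0 < ε) :
    ∃ (g' : E N → ℝ) (c : NNReal), LipschitzWith c g' ∧ tsupport g' ⊆ Metric.closedBall 0 (ρ + 1) ∧
      ∀ x, |g' x - g x| ≤ ε := by
  have hgc : HasCompactSupport g :=
    HasCompactSupport.of_support_subset_isCompact (isCompact_closedBall 0 ρ)
      ((subset_tsupport g).trans hgs)
  have huc : UniformContinuous g := hgc.uniformContinuous_of_continuous hg
  obtain ⟨δ, hδ, hgδ⟩ := Metric.uniformContinuous_iff.mp huc ε hε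
  obtain ⟨g', hg'c, hg'⟩ :=
    hg.exists_contDiff_dist_le_of_forall_mem_ball_dist_le (lt_min one_pos hδ)
  have hsupp : tsupport g' ⊆ Metric.closedBall 0 (ρ + 1) := by
    refine closure_minimal (fun a ha => ?_) Metric.isClosed_closedBall
    by_contra hcon
    rw [mem_closedBall_zero_iff, not_le] at hcon
    have hz : ∀ x : E N, ρ < ‖x‖ → g x = 0 := fun x hx =>
      image_eq_zero_of_notMem_tsupport fun h => by
        have := hgs h
        rw [mem_closedBall_zero_iff] at this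
        linarith
    have h0 : dist (g' a) (g a) ≤ 0 := by
      refine hg' a 0 fun x hx => ?_
      rw [Metric.mem_ball, lt_min_iff] at hx
      have h1 : ρ < ‖x‖ := by
        have h2 : ‖a‖ ≤ ‖x‖ + dist x a := by
          rw [dist_eq_norm]
          calc ‖a‖ = ‖x - (x - a)‖ := by congr 1; abel
            _ ≤ ‖x‖ + ‖x - a‖ := norm_sub_le _ _
        linarith [hx.1]
      rw [hz x h1, hz a (by linarith), dist_self]
    have h1 : g' a = g a := dist_le_zero.1 h0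
    apply ha
    rw [h1]
    exact image_eq_zero_of_notMem_tsupport fun h => by
      have := hgs h
      rw [mem_closedBall_zero_iff] at this
      linarith
  have hg'cs : HasCompactSupport g' :=
    HasCompactSupport.of_support_subset_isCompact (isCompact_closedBall 0 (ρ + 1))
      ((subset_tsupport g').trans hsupp)
  obtain ⟨c, hc⟩ := hg'c.lipschitzWith_of_hasCompactSupport hg'cs (by simp)
  refine ⟨g', c, hc, hsupp, fun x => ?_⟩
  rw [← Real.dist_eq]
  refine hg' x ε fun y hy => ?_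
  rw [Metric.mem_ball, lt_min_iff] at hy
  exact (hgδ hy.2).le

/-- two uniformly close functions which vanish off a set of finite measure have close integrals. -/
theorem abs_integral_sub_le_of_close {N : ℕ} (ν : Measure (E N)) {S : Set (E N)}
    (_hS : MeasurableSet S) (hν : ν S < ⊤) {f₁ f₂ : E N → ℝ} (h₁ : Continuous f₁)
    (h₂ : Continuous f₂) (c₁ : HasCompactSupport f₁) (c₂ : HasCompactSupport f₂)
    (z₁ : ∀ x, x ∉ S → f₁ x = 0) (z₂ : ∀ x, x ∉ S → f₂ x = 0) {e : ℝ}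
    (he : ∀ x, |f₁ x - f₂ x| ≤ e) :
    |∫ x, f₁ x ∂ν - ∫ x, f₂ x ∂ν| ≤ e * (ν S).toReal := by
  obtain ⟨C₁, hC₁⟩ := c₁.exists_bound_of_continuous h₁
  obtain ⟨C₂, hC₂⟩ := c₂.exists_bound_of_continuous h₂
  have i₁ : IntegrableOn f₁ S ν :=
    Measure.integrableOn_of_bounded (M := C₁) hν.ne h₁.aestronglyMeasurable
      (Eventually.of_forall hC₁)
  have i₂ : IntegrableOn f₂ S ν :=
    Measure.integrableOn_of_bounded (M := C₂) hν.ne h₂.aestronglyMeasurable
      (Eventually.of_forall hC₂)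
  rw [← setIntegral_eq_integral_of_forall_compl_eq_zero z₁,
    ← setIntegral_eq_integral_of_forall_compl_eq_zero z₂, ← integral_sub i₁ i₂]
  exact norm_setIntegral_le_of_norm_le_const (f := fun x => f₁ x - f₂ x) (C := e) hν
    fun x _ => he x

theorem tendsto_of_isFlat (hm : 1 ≤ m) (Ws : ℕ → SIV m n) (q : ℝ)
    (h : ∀ R η : ℝ, 0 < R → 0 < η → ∀ᶠ j in atTop, IsFlat (Ws j) q R η)
    (g : E (m + n) → ℝ) (hg : Continuous g) (hgc : HasCompactSupport g) :
    Tendsto (fun j => ∫ X, g X ∂(Ws j).μ) atTop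
      (𝓝 (q * ∫ y : E m, g (mkHV y 0) ∂μH[(m : ℝ)])) := by
  have hk := kap_pos m
  rw [Metric.tendsto_nhds]
  intro ε hε
  -- `q ≥ 0`
  have hq0 : 0 ≤ q := by
    obtain ⟨j, hj⟩ := (h 1 1 one_pos one_pos).exists
    exact hj.dens ▸ (Ws j).Θ_nonneg hm (hj.dom (Metric.mem_closedBall_self zero_le_one))
  -- radius
  obtain ⟨ρ', hρ'0, hρ'⟩ : ∃ ρ' : ℝ, 0 < ρ' ∧ tsupport g ⊆ Metric.closedBall 0 ρ' := by
    obtain ⟨r, hr⟩ := hgc.isCompact.isBounded.subset_closedBall 0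
    exact ⟨max r 1, by positivity, hr.trans (Metric.closedBall_subset_closedBall (le_max_left _ _))⟩
  obtain ⟨ρ, hρdef⟩ : ∃ ρ : ℝ, ρ = ρ' + 1 := ⟨_, rfl⟩
  have hρ : 0 < ρ := by linarith
  have h2ρ : 0 < 2 * ρ := by positivity
  obtain ⟨M, hMdef⟩ : ∃ M : ℝ, M = (q + 1) * (kap m * (2 * ρ) ^ m) := ⟨_, rfl⟩
  have hM : 0 < M := by rw [hMdef]; positivity
  obtain ⟨v, hvdef⟩ : ∃ v : ℝ, v = kap m * ρ ^ m := ⟨_, rfl⟩
  have hv : 0 < v := by rw [hvdef]; positivity
  obtain ⟨ε', ⟨he1, he2⟩, he0⟩ : ∃ ε' : ℝ, (ε' * M ≤ ε / 4 ∧ q * (ε' * v) ≤ ε / 4) ∧ 0 < ε' :=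
    ((eventually_small (f := fun d => d * M) (by fun_prop) (by simp)
        (by positivity : 0 < ε / 4)).and
      (eventually_small (f := fun d => q * (d * v)) (by fun_prop) (by simp)
        (by positivity : 0 < ε / 4)) |>.and self_mem_nhdsWithin).exists
  obtain ⟨g', c, hg'L, hg's, hg'g⟩ := exists_lip_approx g hg hρ' ε' he0
  rw [← hρdef] at hg's
  have hg'c : HasCompactSupport g' :=
    HasCompactSupport.of_support_subset_isCompact (isCompact_closedBall 0 ρ)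
      ((subset_tsupport g').trans hg's)
  obtain ⟨C₀, hC₀⟩ := hg'c.exists_bound_of_continuous hg'L.continuous
  obtain ⟨c₁, hc₁def⟩ : ∃ c₁ : ℝ, c₁ = max 1 (max C₀ c) := ⟨_, rfl⟩
  have hc₁ : 0 < c₁ := by rw [hc₁def]; positivity
  have hc₁C : C₀ ≤ c₁ := hc₁def ▸ (le_max_left _ _).trans (le_max_right _ _)
  have hc₁c : (c : ℝ) ≤ c₁ := hc₁def ▸ (le_max_right _ _).trans (le_max_right _ _)
  obtain ⟨η₀, hη₀, HP⟩ := planar_core m n hm q ρ (ε / (4 * c₁)) hρ (by positivity)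
  filter_upwards [h (2 * ρ) (min η₀ 1) h2ρ (by positivity)] with j hj
  have hF₀ : IsFlat (Ws j) q (2 * ρ) η₀ := hj.mono hm h2ρ le_rfl (min_le_left _ _)
  have hfin : (Ws j).μ (Metric.ball 0 (2 * ρ)) < ⊤ := (Ws j).rat_ball_lt_top hj.dom
  have hmass : ((Ws j).μ (Metric.ball 0 (2 * ρ))).toReal ≤ M := by
    rw [hMdef]
    refine (hj.mass_le h2ρ).trans ?_
    refine mul_le_mul_of_nonneg_right ?_ (by positivity)
    linarith [min_le_right η₀ 1]
  -- (1) the Lipschitz function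
  have P1 : |∫ X, g' X ∂(Ws j).μ - q * ∫ y : E m, g' (mkHV y 0) ∂μH[(m : ℝ)]| ≤ ε / 4 := by
    have := HP (Ws j) q le_rfl hF₀ (fun X => c₁⁻¹ * g' X)
      (fun X => by
        rw [abs_mul, abs_of_pos (inv_pos.2 hc₁), inv_mul_le_iff₀ hc₁, mul_one]
        exact (hC₀ X).trans hc₁C)
      (LipschitzWith.of_dist_le_mul fun X Y => by
        rw [Real.dist_eq, ← mul_sub, abs_mul, abs_of_pos (inv_pos.2 hc₁), inv_mul_le_iff₀ hc₁,
          NNReal.coe_one, one_mul, ← Real.dist_eq]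
        exact (hg'L.dist_le_mul X Y).trans (mul_le_mul_of_nonneg_right hc₁c dist_nonneg))
      ((tsupport_mul_subset_right (f := fun _ => c₁⁻¹) (g := g')).trans hg's)
    rw [integral_const_mul, integral_const_mul] at this
    have e1 : ∫ X, g' X ∂(Ws j).μ - q * ∫ y : E m, g' (mkHV y 0) ∂μH[(m : ℝ)]
        = c₁ * (c₁⁻¹ * (∫ X, g' X ∂(Ws j).μ)
          - q * (c₁⁻¹ * ∫ y : E m, g' (mkHV y 0) ∂μH[(m : ℝ)])) := by
      field_simp
    rw [e1, abs_mul, abs_of_pos hc₁]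
    calc c₁ * _ ≤ c₁ * (ε / (4 * c₁)) := mul_le_mul_of_nonneg_left this hc₁.le
      _ = ε / 4 := by field_simp
  -- vanishing
  have hρρ' : ρ' ≤ ρ := by linarith
  have zg : ∀ X : E (m + n), ρ < ‖X‖ → g X = 0 := fun X hX =>
    image_eq_zero_of_notMem_tsupport fun hh => by
      have := hρ' hh
      rw [mem_closedBall_zero_iff] at this
      linarith
  have zg' : ∀ X : E (m + n), ρ < ‖X‖ → g' X = 0 := fun X hX =>
    image_eq_zero_of_notMem_tsupport fun hh => by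
      have := hg's hh
      rw [mem_closedBall_zero_iff] at this
      linarith
  -- (2) on the varifold
  have P2 : |∫ X, g X ∂(Ws j).μ - ∫ X, g' X ∂(Ws j).μ| ≤ ε' * M := by
    refine (abs_integral_sub_le_of_close (Ws j).μ Metric.isOpen_ball.measurableSet hfin hg
      hg'L.continuous hgc hg'c (fun X hX => zg X ?_) (fun X hX => zg' X ?_)
      (fun X => by rw [abs_sub_comm]; exact hg'g X)).trans
      (mul_le_mul_of_nonneg_left hmass he0.le)
    · rw [mem_ball_zero_iff, not_lt] at hX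
      linarith
    · rw [mem_ball_zero_iff, not_lt] at hX
      linarith
  -- (3) on the plane
  have hcm : Continuous fun y : E m => mkHV y (0 : E n) := isometry_mk_zero.continuous
  have hcs : ∀ f : E (m + n) → ℝ, (∀ X : E (m + n), ρ < ‖X‖ → f X = 0) →
      HasCompactSupport fun y : E m => f (mkHV y (0 : E n)) := fun f hf =>
    HasCompactSupport.of_support_subset_isCompact (isCompact_closedBall 0 ρ) fun y hy => by
      rw [mem_closedBall_zero_iff]
      by_contra hcon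
      rw [not_le] at hcon
      exact hy (hf _ (by rwa [norm_mk_zero]))
  have P3 : |∫ y : E m, g (mkHV y 0) ∂μH[(m : ℝ)] - ∫ y : E m, g' (mkHV y 0) ∂μH[(m : ℝ)]|
      ≤ ε' * v := by
    have := abs_integral_sub_le_of_close (μH[(m : ℝ)] : Measure (E m))
      (S := Metric.closedBall 0 ρ) Metric.isClosed_closedBall.measurableSet
      (by rw [hausdorff_closedBall m 0 hρ]; exact ENNReal.ofReal_lt_top)
      (hg.comp hcm) (hg'L.continuous.comp hcm) (hcs g zg) (hcs g' zg')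
      (fun y hy => zg _ (by
        rw [norm_mk_zero]
        rw [mem_closedBall_zero_iff, not_le] at hy
        exact hy))
      (fun y hy => zg' _ (by
        rw [norm_mk_zero]
        rw [mem_closedBall_zero_iff, not_le] at hy
        exact hy))
      (e := ε') (fun y => by rw [abs_sub_comm]; exact hg'g _)
    rw [hausdorff_closedBall m 0 hρ, ENNReal.toReal_ofReal (by positivity), ← hvdef] at this
    exact this
  rw [Real.dist_eq]
  have e2 : ∫ X, g X ∂(Ws j).μ - q * ∫ y : E m, g (mkHV y 0) ∂μH[(m : ℝ)]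
      = (∫ X, g X ∂(Ws j).μ - ∫ X, g' X ∂(Ws j).μ)
        + (∫ X, g' X ∂(Ws j).μ - q * ∫ y : E m, g' (mkHV y 0) ∂μH[(m : ℝ)])
        - q * (∫ y : E m, g (mkHV y 0) ∂μH[(m : ℝ)] - ∫ y : E m, g' (mkHV y 0) ∂μH[(m : ℝ)]) := by
    ring
  rw [e2]
  have P4 : |q * (∫ y : E m, g (mkHV y 0) ∂μH[(m : ℝ)] - ∫ y : E m, g' (mkHV y 0) ∂μH[(m : ℝ)])|
      ≤ q * (ε' * v) := by
    rw [abs_mul, abs_of_nonneg hq0]
    exact mul_le_mul_of_nonneg_left P3 hq0
  have := abs_sub (∫ X, g X ∂(Ws j).μ - ∫ X, g' X ∂(Ws j).μ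
        + (∫ X, g' X ∂(Ws j).μ - q * ∫ y : E m, g' (mkHV y 0) ∂μH[(m : ℝ)]))
      (q * (∫ y : E m, g (mkHV y 0) ∂μH[(m : ℝ)] - ∫ y : E m, g' (mkHV y 0) ∂μH[(m : ℝ)]))
  have h3 := abs_add_le (∫ X, g X ∂(Ws j).μ - ∫ X, g' X ∂(Ws j).μ)
    (∫ X, g' X ∂(Ws j).μ - q * ∫ y : E m, g' (mkHV y 0) ∂μH[(m : ℝ)])
  linarith

end Claimed.Agent.R322.Flat
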