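import Claimed.Agent.R322.Flat.Select

/-!
# R322 / Flat / Main : CO Proposition 2.1
(leaves L-Flat-SimInt = `simil_integral`; L-Flat-OfNest = `flatData_of_nest`; `exists_flatData` is glue)

PLANS.
* `simil_integral`: `W.simil_μ` twice, `integral_smul_measure`, `integral_map`; `simMap x l O X = l⁻¹ • simMap x 1 O X`.
* `flatData_of_nest`.  `W' = W.simil x 1 O`, `L i = l (φ i)`, `K' = simMap x 1 O '' K`, `σ' i = (σ (φ i)).map O`, `c = 1`, `C = 2^(s+1)`.
  `simInv x 1 O 0 = x`; `simil_sing`, `simil_Θ`, `simil_support`; `flat` from `tendsto_of_isFlat` and `simil_integral`;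
  `L i • O X = simMap x 1 O (x + L i • X)`; `O` is a measurable equivalence and an isometry (`O ⁻¹' ball Y u = ball (O.symm Y) u`).
-/

set_option autoImplicit false

open scoped ENNReal ContDiff
open MeasureTheory Filter Topology

namespace Claimed.Agent.R322.Flat

variable {m n : ℕ}

theorem simil_integral_aux (W : SIV m n) (x : E (m + n)) (l : ℝ) (hl : 0 < l)
    (O : E (m + n) ≃ₗᵢ[ℝ] E (m + n)) (g : E (m + n) → ℝ) (hg : Continuous g) :
    ∫ X, g X ∂(W.simil x l hl O).μ = (l ^ m)⁻¹ * ∫ X, g (simMap x l O X) ∂W.μ := by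
  rw [SIV.simil_μ, integral_smul_measure,
    integral_map (Base.contDiff_simMap x O l).continuous.aemeasurable hg.aestronglyMeasurable,
    ENNReal.toReal_ofReal (by positivity), smul_eq_mul]

theorem simil_integral (W : SIV m n) (x : E (m + n)) (l : ℝ) (hl : 0 < l)
    (O : E (m + n) ≃ₗᵢ[ℝ] E (m + n)) (g : E (m + n) → ℝ) (hg : Continuous g) :
    ∫ X, g X ∂(W.simil x l hl O).μ
      = (l ^ m)⁻¹ * ∫ X, g (l⁻¹ • X) ∂(W.simil x 1 one_pos O).μ := by
  rw [simil_integral_aux W x l hl O g hg,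
    simil_integral_aux W x 1 one_pos O (fun X => g (l⁻¹ • X)) (hg.comp (continuous_const_smul _))]
  simp [simMap]

theorem flatData_of_nest (hm : 1 ≤ m) {W : SIV m n} {s : ℝ} (hs : (m : ℝ) - 1 < s) (D : Nest W s)
    (hx : D.x ∈ W.sing) (Q : ℕ) (K : Set (E (m + n))) (hK : IsCompact K) (hKs : K ⊆ W.support)
    (hKQ : ∀ p ∈ K, W.Θ p = Q) (hxK : D.x ∈ K) (hKj : ∀ j, D.Kj j ⊆ K)
    (O : E (m + n) ≃ₗᵢ[ℝ] E (m + n)) (φ : ℕ → ℕ) (hφ : StrictMono φ)
    (hflat : ∀ R η : ℝ, 0 < R → 0 < η →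
      ∀ᶠ j in atTop, IsFlat (W.simil D.x (D.l (φ j)) (D.l_pos (φ j)) O) (W.Θ D.x) R η) :
    Nonempty (FlatData m n s) := by
  have hs0 : 0 ≤ s := by
    have : (1 : ℝ) ≤ m := by exact_mod_cast hm
    linarith
  have hmap : ∀ (ν : Measure (E (m + n))) (A : Set (E (m + n))), (ν.map O) A = ν (O ⁻¹' A) :=
    fun ν A => O.toHomeomorph.toMeasurableEquiv.map_apply A
  have hC1 : (1 : ℝ) ≤ 2 ^ (s + 1) := Real.one_le_rpow (by norm_num) (by linarith)
  have huniv : ∀ i, ((D.σ (φ i)).map O) Set.univ = 1 := by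
    intro i
    have := D.prob (φ i)
    rw [hmap, Set.preimage_univ, measure_univ]
  refine ⟨{
    W := W.simil D.x 1 one_pos O
    Q := Q
    Q_pos := ?_
    zero_sing := ?_
    dens_zero := ?_
    L := fun i => D.l (φ i)
    L_pos := fun i => D.l_pos (φ i)
    L_lim := D.l_lim.comp hφ.tendsto_atTop
    flat := ?_
    K := simMap D.x 1 O '' K
    K_cpt := hK.image (Base.contDiff_simMap D.x O 1).continuous
    K_sub := ?_
    K_dens := ?_
    σ := fun i => (D.σ (φ i)).map O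
    σ_supp := ?_
    c := 1
    C := 2 ^ (s + 1)
    c_pos := one_pos
    σ_ball := ?_
    σ_lower := ?_
    σ_upper := ?_ }⟩
  · have h1 := W.one_le_Θ hm (hKs hxK)
    rw [hKQ _ hxK] at h1
    exact_mod_cast h1
  · rw [SIV.simil_sing]
    change simInv D.x 1 O 0 ∈ W.sing
    rwa [simInv_zero']
  · rw [SIV.simil_Θ, simInv_zero', hKQ _ hxK]
  · intro g hg hgc
    have h1 := tendsto_of_isFlat hm _ _ hflat g hg hgc
    rw [hKQ _ hxK] at h1
    refine h1.congr fun i => ?_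
    exact simil_integral W D.x _ (D.l_pos (φ i)) O g hg
  · rintro _ ⟨p, hp, rfl⟩
    rw [SIV.simil_support]
    change simInv D.x 1 O (simMap D.x 1 O p) ∈ W.support
    rw [Base.simInv_simMap D.x O one_pos]
    exact hKs hp
  · rintro _ ⟨p, hp, rfl⟩
    rw [SIV.simil_Θ, Base.simInv_simMap D.x O one_pos]
    exact hKQ p hp
  · intro i
    rw [hmap]
    refine measure_mono_null ?_ (D.carr (φ i))
    intro X hX hX'
    apply hX
    refine ⟨by rw [O.norm_map]; exact hX'.1, D.x + D.l (φ i) • X, hKj _ hX'.2, ?_⟩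
    simp [simMap]
  · intro i X u hu
    rw [hmap]
    have h1 : (O : E (m + n) → E (m + n)) ⁻¹' Metric.ball X u = Metric.ball (O.symm X) u := by
      ext Y
      simp only [Set.mem_preimage, Metric.mem_ball]
      rw [← O.dist_map Y (O.symm X), O.apply_symm_apply]
    rw [h1]
    exact D.frost (φ i) _ u hu
  · intro i
    rw [huniv]
    simp
  · intro i
    rw [huniv]
    rw [← ENNReal.ofReal_one]
    exact ENNReal.ofReal_le_ofReal hC1

/-- **CO Proposition 2.1.** -/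
theorem exists_flatData {m n : ℕ} (hm : 1 ≤ m) (hn : 1 ≤ n) (W : SIV m n) (s : ℝ)
    (hs : ((m : ℝ) - 1) < s) (hdim : ENNReal.ofReal s < dimH W.sing) :
    Nonempty (FlatData m n s) := by
  have hs0 : 0 ≤ s := by
    have : (1 : ℝ) ≤ m := by exact_mod_cast hm
    linarith
  obtain ⟨K₀, hK₀, hK₀s, hd⟩ := exists_compact_sing W s hdim
  obtain ⟨μ₀, C, hprob, hμ₀, hfr⟩ := Haus.exists_frostman_of_lt_dimH K₀ hK₀ s hs0 hd
  have hsupp : K₀ ⊆ W.support := fun p hp => (hK₀s hp).1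
  have hpos : 0 < μ₀ K₀ := by
    have h1 : μ₀ Set.univ ≤ μ₀ K₀ + μ₀ K₀ᶜ := by
      rw [← Set.union_compl_self K₀]
      exact measure_union_le _ _
    rw [hμ₀, add_zero, measure_univ] at h1
    exact lt_of_lt_of_le one_pos h1
  obtain ⟨Q, K, hK, hKK₀, hKpos, hKQ⟩ := exists_level hm hn W s hs μ₀ C hfr K₀ hK₀ hsupp hpos
  obtain ⟨D, hDx, hDK⟩ := exists_nest hm W μ₀ K hK (hKK₀.trans hsupp) hKpos C s hs0 hfr
  obtain ⟨O, φ, hφ, hflat⟩ := D.flat hm hs
  exact flatData_of_nest hm hs D (hK₀s (hKK₀ hDx)) Q K hK (hKK₀.trans hsupp) hKQ hDx hDK O φ hφ hflat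

end Claimed.Agent.R322.Flat
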