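import Claimed.Agent.R322.Pack059
import Claimed.Agent.R322.Flat.Conv
import Claimed.Agent.R322.Pack057
import Claimed.Agent.R322.Pack009

/-!
# R322 / Flat / Select : selection of a compact set of constant integer density
(leaves L-Flat-CompactSing = `exists_compact_sing`; L-Flat-Level = `exists_level`; `exists_integer_point` is glue)

PLANS.
* `exists_compact_sing`: `W.isSigmaCompact_sing` gives `sing = ⋃ n, K n` with `K n` compact; `dimH_iUnion`, `lt_iSup_iff`.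
* `exists_level`.  `h` from `exists_measurable_Θ` (`K₀ ⊆ support ⊆ U`).  `A = K₀ ∩ h ⁻¹' (range ((↑) : ℕ → ℝ))ᶜ` is measurable (countable
  range).  If `0 < μ₀ A`, inner regularity (`MeasurableSet.exists_lt_isCompact_of_ne_top`) gives a compact `K' ⊆ A` of positive
  measure, contradicting `exists_integer_point`.  So `μ₀ K₀ ≤ ∑' Q, μ₀ (K₀ ∩ h ⁻¹' {Q})`, one term is positive
  (`measure_iUnion_null`), and inner regularity again gives `K`.
-/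

set_option autoImplicit false

open scoped ENNReal ContDiff
open MeasureTheory Filter Topology

namespace Claimed.Agent.R322.Flat

variable {m n : ℕ}

theorem exists_compact_sing (W : SIV m n) (s : ℝ) (hdim : ENNReal.ofReal s < dimH W.sing) :
    ∃ K₀ : Set (E (m + n)), IsCompact K₀ ∧ K₀ ⊆ W.sing ∧ ENNReal.ofReal s < dimH K₀ := by
  obtain ⟨K, hK, hKU⟩ := W.isSigmaCompact_sing
  rw [← hKU, dimH_iUnion, lt_iSup_iff] at hdim
  obtain ⟨i, hi⟩ := hdim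
  exact ⟨K i, hK i, hKU ▸ Set.subset_iUnion K i, hi⟩

/-- every compact set of positive Frostman measure in the support contains a point of integer density. -/
theorem exists_integer_point (hm : 1 ≤ m) (hn : 1 ≤ n) (W : SIV m n) (s : ℝ) (hs : (m : ℝ) - 1 < s)
    (μ₀ : Measure (E (m + n))) [IsFiniteMeasure μ₀] (C : ℝ) (hfr : Haus.IsFrost μ₀ C s)
    (K : Set (E (m + n))) (hK : IsCompact K) (hKs : K ⊆ W.support) (hpos : 0 < μ₀ K) :
    ∃ x ∈ K, ∃ Q : ℕ, W.Θ x = Q := by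
  have hs0 : 0 ≤ s := by
    have : (1 : ℝ) ≤ m := by exact_mod_cast hm
    linarith
  obtain ⟨D, hDx, -⟩ := exists_nest hm W μ₀ K hK hKs hpos C s hs0 hfr
  obtain ⟨O, φ, -, hflat⟩ := D.flat hm hs
  exact ⟨D.x, hDx, integer_of_isFlat hm hn _ _ hflat⟩

theorem exists_level (hm : 1 ≤ m) (hn : 1 ≤ n) (W : SIV m n) (s : ℝ) (hs : (m : ℝ) - 1 < s)
    (μ₀ : Measure (E (m + n))) [IsFiniteMeasure μ₀] (C : ℝ) (hfr : Haus.IsFrost μ₀ C s)
    (K₀ : Set (E (m + n))) (hK₀ : IsCompact K₀) (hK₀s : K₀ ⊆ W.support) (hpos : 0 < μ₀ K₀) :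
    ∃ (Q : ℕ) (K : Set (E (m + n))), IsCompact K ∧ K ⊆ K₀ ∧ 0 < μ₀ K ∧ ∀ p ∈ K, W.Θ p = Q := by
  obtain ⟨h, hmeas, hh⟩ := exists_measurable_Θ hm W
  have hK₀m : MeasurableSet K₀ := hK₀.isClosed.measurableSet
  have hrange : MeasurableSet (Set.range ((↑) : ℕ → ℝ)) := (Set.countable_range _).measurableSet
  have hAm : MeasurableSet (K₀ ∩ h ⁻¹' (Set.range ((↑) : ℕ → ℝ))ᶜ) :=
    hK₀m.inter (hmeas hrange.compl)
  have hA0 : μ₀ (K₀ ∩ h ⁻¹' (Set.range ((↑) : ℕ → ℝ))ᶜ) = 0 := by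
    by_contra hne
    have hpos' : 0 < μ₀ (K₀ ∩ h ⁻¹' (Set.range ((↑) : ℕ → ℝ))ᶜ) := pos_iff_ne_zero.2 hne
    obtain ⟨K', hK'A, hK', hK'pos⟩ := hAm.exists_lt_isCompact_of_ne_top (measure_ne_top _ _) hpos'
    obtain ⟨x, hx, Q, hQ⟩ := exists_integer_point hm hn W s hs μ₀ C hfr K' hK'
      (fun p hp => hK₀s (hK'A hp).1) hK'pos
    apply (hK'A hx).2
    exact ⟨Q, by rw [hh x (hK₀s (hK'A hx).1).1, hQ]⟩
  have hex : ∃ Q : ℕ, 0 < μ₀ (K₀ ∩ h ⁻¹' {(Q : ℝ)}) := by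
    by_contra hcon
    push Not at hcon
    have h0 : ∀ Q : ℕ, μ₀ (K₀ ∩ h ⁻¹' {(Q : ℝ)}) = 0 := fun Q => le_antisymm (hcon Q) zero_le
    have hsub : K₀ ⊆ (K₀ ∩ h ⁻¹' (Set.range ((↑) : ℕ → ℝ))ᶜ) ∪ ⋃ Q : ℕ, (K₀ ∩ h ⁻¹' {(Q : ℝ)}) := by
      intro p hp
      by_cases hpr : h p ∈ Set.range ((↑) : ℕ → ℝ)
      · obtain ⟨Q, hQ⟩ := hpr
        exact Or.inr (Set.mem_iUnion.2 ⟨Q, hp, hQ.symm⟩)
      · exact Or.inl ⟨hp, hpr⟩
    have : μ₀ K₀ = 0 :=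
      measure_mono_null hsub (measure_union_null hA0 (measure_iUnion_null h0))
    exact hpos.ne' this
  obtain ⟨Q, hQ⟩ := hex
  obtain ⟨K, hKA, hK, hKpos⟩ := (hK₀m.inter (hmeas (measurableSet_singleton (Q : ℝ)))).exists_lt_isCompact_of_ne_top
    (measure_ne_top _ _) hQ
  refine ⟨Q, K, hK, fun p hp => (hKA hp).1, hKpos, fun p hp => ?_⟩
  rw [← hh p (hK₀s (hKA hp).1).1]
  exact (hKA hp).2

end Claimed.Agent.R322.Flat
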